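import Vale.Agent.P011.H158.Psi.TopK
import Vale.Agent.P011.H439.LC
import Vale.Agent.P011.H627.Odd.GlueP

/-!
# Number fields: local constancy at the central base points, from the abstract theorem
-/

set_option linter.unusedSectionVars false

namespace Vale.Agent.P011.H327.LC

open Matrix Polynomial Filter Topology Module NumberField IsDedekindDomain
open Vale.Agent.P011.H775.Top Vale.Agent.P011.H439 Vale.Agent.P011.H158.Psi
open Vale.Agent.P011.Arith Vale.Agent.P011.Even
open Vale.Agent.P011.H627.Odd (GoodT ModLCNF)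
open Vale.Agent.P011.H182.Odd (LCd)

/-- **The abstract theorem**: local constancy in every degree. -/
def LCAll : Prop :=
  ∀ (K D E : Type) [Field K] [StarRing K] [DivisionRing D] [StarRing D] [Algebra K D]
    [StarModule K D] [TopologicalSpace K] [IsTopologicalDivisionRing K] [ContinuousStar K]
    [T1Space K] [TopologicalSpace D] [IsTopologicalDivisionRing D] [ContinuousStar D] [T1Space D]
    [NonarchimedeanAddGroup D] [AddCommGroup E],
    Continuous (algebraMap K D) →
    (∀ O ∈ 𝓝 (1 : D), (AddSubgroup.closure {x : D | ∃ u ∈ O, u * star u = 1 ∧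
      x = u - 1} : Set D) ∈ 𝓝 (0 : D)) →
    (∀ O ∈ 𝓝 (0 : K), ∀ S : Finset K, ∃ ν ∈ O, ν ≠ 0 ∧ ν * star ν ∉ S) →
    ∀ (W : Set D) (ch : D → E), Chr K W ch → ∀ m : ℕ, 1 ≤ m → LCm K W ch m

/-- **Number fields, the span of the unitary elements** (degree `n`). -/
def SpanNF (n : ℕ) : Prop :=
  ∀ (k K D : Type) [Field k] [NumberField k] [Field K] [NumberField K] [StarRing K]
    [DivisionRing D] [StarRing D] [Algebra k K] [Algebra k D] [Algebra K D] [IsScalarTower k K D]
    (d : kˣ) (s : K), Setting k K D d s → finrank K D = n ^ 2 →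
    ∀ (M : ℕ) (B : Basis (Fin M) k D) (T : Finset (Pl k)) [Nonempty T], GoodT K D n d T →
      ∀ O ∈ @nhds D (topD B (av T)) 1,
        (AddSubgroup.closure {x : D | ∃ u ∈ O, u * star u = 1 ∧ x = u - 1} : Set D) ∈
          @nhds D (topD B (av T)) 0

/-- **Local constancy at the central base points, field-general.** -/
theorem lcd_top {k K D E : Type} [Field k] [Field K] [StarRing K] [DivisionRing D] [StarRing D]
    [Algebra k K] [Algebra k D] [Algebra K D] [IsScalarTower k K D] [FiniteDimensional K D]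
    [StarModule K D] [AddCommGroup E] {ι κ' : Type} [Fintype ι] [Fintype κ'] [Nonempty ι]
    (B : Basis κ' k D) (a : ι → AbsoluteValue k ℝ) (ha : ∀ i, IsNonarchimedean (a i))
    (hstk : ∀ (c : k) (x : D), star (c • x) = c • star x)
    (hst : ∀ c : K, star (algebraMap K D c) = algebraMap K D (star c))
    (hspan : ∀ O ∈ @nhds D (topD B a) 1,
      (AddSubgroup.closure {x : D | ∃ u ∈ O, u * star u = 1 ∧ x = u - 1} : Set D) ∈
        @nhds D (topD B a) 0)
    (hK : ∀ O ∈ @nhds K (topI K (topD B a)) 0, ∀ S : Finset K, ∃ ν ∈ O, ν ≠ 0 ∧ ν * star ν ∉ S)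
    (hLC : LCAll) {W : Set D} {ch : D → E} (hc : @Chr K D E _ _ _ _ _ (topD B a) _ W ch)
    {κ : K} (hκ : star κ ≠ κ) : ∃ C : D → E, @LCd K D E _ _ _ _ _ (topD B a) _ ch κ C := by
  classical
  let _ := topD B a
  let _ := topI K (topD B a)
  have i1 : IsTopologicalDivisionRing D := isTopologicalDivisionRing B a
  have i2 : T2Space D := t2 B a
  have i3 : ContinuousStar D := continuousStar B a hstk
  have i4 : NonarchimedeanAddGroup D := nonarchimedeanAddGroup B a ha
  have i5 : IsTopologicalDivisionRing K := topI_isTopologicalDivisionRing (topD B a)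
  have i6 : T2Space K := topI_t2 (topD B a)
  have i7 : ContinuousStar K := topI_continuousStar (topD B a) hst
  have hcont : Continuous (algebraMap K D) := topI_continuous (topD B a)
  have h1 := hLC K D E hcont hspan hK W ch hc (finrank K D) finrank_pos
  obtain ⟨C, h2, h3⟩ := lcd_of_lc hκ hc hcont (finBasis K D)
    (fun i => cont_coord B a (finBasis K D) i)
    (h1 1 _ _ _ (cop_base hκ) (dm_base hκ hc))
  exact ⟨C, hκ, h2, h3⟩

/-- **Number fields, local constancy at the central base points.** -/
theorem modLC_of {n : ℕ} (hSp : SpanNF n) (hLC : LCAll) : ModLCNF n := by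
  intro k K D _ _ _ _ _ _ _ _ _ _ _ d s hS hdeg M B T _ hT e he E _ W ch hc hE κ hκ hκj
  have := hS.fin
  have : StarModule K D := ⟨hS.star_smul⟩
  have hstk : ∀ (c : k) (x : D), star (c • x) = c • star x := by
    intro c x
    rw [← algebraMap_smul K c x, hS.star_smul, (hS.fix _).mpr ⟨c, rfl⟩, algebraMap_smul]
  have hfix : ∀ c : k, star (algebraMap k K c) = algebraMap k K c := fun c =>
    (hS.fix _).mpr ⟨c, rfl⟩
  refine lcd_top B (av T) (av_nonarch fun p hp => ?_) hstk (fun c => hS.star_alg c)
    (hSp k K D d s hS hdeg M B T hT) (fun O hO S => inst_norm B T hfix O hO S) hLC hc hκ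
  obtain ⟨v, h1, -⟩ := hT.fin p hp
  exact ⟨v, h1⟩

end Vale.Agent.P011.H327.LC
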